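import Vale.Agent.P281.MathlibUsed
import Mathlib.Analysis.Calculus.InverseFunctionTheorem.ContDiff

/-!
# P281, project T-L, block B8a (helper740): holomorphic retractions to an immersed fibre
-/

open Set Filter
open scoped Topology ContDiff Manifold

noncomputable section

namespace Vale.Agent.P281.H740

section
variable {E E' : Type} [NormedAddCommGroup E] [NormedSpace ℂ E] [NormedAddCommGroup E']
  [NormedSpace ℂ E'] {X Y : Type} [TopologicalSpace X] [ChartedSpace E X] [TopologicalSpace Y]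
  [ChartedSpace E' Y]

theorem mfderiv_loc {g : X → Y} {x : X} (h : MDifferentiableAt 𝓘(ℂ, E) 𝓘(ℂ, E') g x) :
    mfderiv 𝓘(ℂ, E) 𝓘(ℂ, E') g x =
      fderiv ℂ (fun u => chartAt E' (g x) (g ((chartAt E x).symm u))) (chartAt E x x) := by
  rw [h.mfderiv]
  simp only [writtenInExtChartAt, extChartAt, mfld_simps, fderivWithin_univ,
    Function.comp_def]
  rfl

theorem contDiffAt_loc {g : X → Y} {x : X} (h : ContMDiffAt 𝓘(ℂ, E) 𝓘(ℂ, E') ω g x) :
    ContDiffAt ℂ ω (fun u => chartAt E' (g x) (g ((chartAt E x).symm u))) (chartAt E x x) := by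
  have h1 := (contMDiffAt_iff.1 h).2
  simp only [extChartAt, mfld_simps, contDiffWithinAt_univ, Function.comp_def] at h1
  exact h1

theorem hasStrictFDerivAt_loc {g : X → Y} {x : X} (h : ContMDiffAt 𝓘(ℂ, E) 𝓘(ℂ, E') ω g x) :
    HasStrictFDerivAt (fun u => chartAt E' (g x) (g ((chartAt E x).symm u)))
      (mfderiv 𝓘(ℂ, E) 𝓘(ℂ, E') g x : E →L[ℂ] E') (chartAt E x x) := by
  rw [mfderiv_loc (h.mdifferentiableAt (by simp))]
  exact (contDiffAt_loc h).hasStrictFDerivAt (by simp)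

end

section
variable {E E' E₀ : Type} [NormedAddCommGroup E] [NormedSpace ℂ E] [NormedAddCommGroup E']
  [NormedSpace ℂ E'] [NormedAddCommGroup E₀] [NormedSpace ℂ E₀] [FiniteDimensional ℂ E]
  [FiniteDimensional ℂ E'] [FiniteDimensional ℂ E₀] {X Y F : Type} [TopologicalSpace X]
  [ChartedSpace E X] [TopologicalSpace Y] [ChartedSpace E' Y] [TopologicalSpace F]
  [ChartedSpace E₀ F]

/-- linear algebra: a left inverse `L` of the injection `B`, with `(A, L)` bijective -/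
theorem exists_lin (hn : Module.finrank ℂ E = Module.finrank ℂ E' + Module.finrank ℂ E₀)
    {A : E →L[ℂ] E'} {B : E₀ →L[ℂ] E} (hA : Function.Surjective A) (hB : Function.Injective B)
    (hAB : ∀ ξ, A (B ξ) = 0) :
    ∃ (L : E →L[ℂ] E₀) (G : E ≃L[ℂ] E' × E₀), (∀ ξ, L (B ξ) = ξ) ∧
      (G : E →L[ℂ] E' × E₀) = A.prod L := by
  obtain ⟨l, hl⟩ := LinearMap.exists_leftInverse_of_injective (B : E₀ →ₗ[ℂ] E)
    (LinearMap.ker_eq_bot.2 hB)
  have hlB : ∀ ξ, l (B ξ) = ξ := fun ξ => LinearMap.congr_fun hl ξ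
  let L : E →L[ℂ] E₀ := LinearMap.toContinuousLinearMap l
  have hker : LinearMap.range (B : E₀ →ₗ[ℂ] E) = LinearMap.ker (A : E →ₗ[ℂ] E') := by
    refine Submodule.eq_of_le_of_finrank_eq ?_ ?_
    · rintro _ ⟨ξ, rfl⟩
      exact hAB ξ
    · have h1 := LinearMap.finrank_range_of_inj (f := (B : E₀ →ₗ[ℂ] E)) hB
      have h2 := LinearMap.finrank_range_add_finrank_ker (A : E →ₗ[ℂ] E')
      have h3 : LinearMap.range (A : E →ₗ[ℂ] E') = ⊤ := LinearMap.range_eq_top.2 hA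
      rw [h3, finrank_top] at h2
      omega
  have hinj : Function.Injective ((A.prod L : E →L[ℂ] E' × E₀) : E →ₗ[ℂ] E' × E₀) := by
    rw [injective_iff_map_eq_zero]
    intro ξ hξ
    have h1 : A ξ = 0 := congrArg Prod.fst hξ
    have h2 : l ξ = 0 := congrArg Prod.snd hξ
    have h3 : ξ ∈ LinearMap.ker (A : E →ₗ[ℂ] E') := h1
    rw [← hker] at h3
    obtain ⟨η, rfl⟩ := h3
    have h4 : l (B η) = 0 := h2
    rw [hlB] at h4
    rw [h4]
    exact map_zero _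
  have hfin : Module.finrank ℂ E = Module.finrank ℂ (E' × E₀) := by
    rw [Module.finrank_prod, hn]
  refine ⟨L, (LinearMap.linearEquivOfInjective _ hinj hfin).toContinuousLinearEquiv, hlB, ?_⟩
  ext v <;> rfl

/-- **Retraction**: near a point of an immersed fibre, there is a holomorphic map `ρ : X → F` with
`i (ρ z) = z` for all points `z` of the fibre of `f`. -/
theorem exists_retr [IsManifold 𝓘(ℂ, E) ω X] [IsManifold 𝓘(ℂ, E₀) ω F]
    (hn : Module.finrank ℂ E = Module.finrank ℂ E' + Module.finrank ℂ E₀)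
    {f : X → Y} {i : F → X} {y : Y} {t₀ : F} (hf : ContMDiff 𝓘(ℂ, E) 𝓘(ℂ, E') ω f)
    (hi : ContMDiff 𝓘(ℂ, E₀) 𝓘(ℂ, E) ω i)
    (hsub : Function.Surjective (mfderiv 𝓘(ℂ, E) 𝓘(ℂ, E') f (i t₀)))
    (himm : Function.Injective (mfderiv 𝓘(ℂ, E₀) 𝓘(ℂ, E) i t₀)) (hfi : ∀ t, f (i t) = y) :
    ∃ ρ : X → F, ContMDiffAt 𝓘(ℂ, E) 𝓘(ℂ, E₀) ω ρ (i t₀) ∧ ρ (i t₀) = t₀ ∧
      ∀ᶠ z in 𝓝 (i t₀), f z = y → i (ρ z) = z := by
  set A : E →L[ℂ] E' := mfderiv 𝓘(ℂ, E) 𝓘(ℂ, E') f (i t₀) with hA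
  set B : E₀ →L[ℂ] E := mfderiv 𝓘(ℂ, E₀) 𝓘(ℂ, E) i t₀ with hB
  have hAB : ∀ ξ, A (B ξ) = 0 := by
    intro ξ
    have h1 := mfderiv_comp_apply t₀ (g := f) (f := i)
      ((hf (i t₀)).mdifferentiableAt (by simp)) ((hi t₀).mdifferentiableAt (by simp)) ξ
    have h2 : f ∘ i = fun _ => y := funext hfi
    rw [h2, mfderiv_const] at h1
    exact h1.symm
  obtain ⟨L, G, hLB, hG⟩ := exists_lin hn hsub himm hAB
  set cX := chartAt E (i t₀) with hcX
  set cF := chartAt E₀ t₀ with hcF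
  have hFs := hasStrictFDerivAt_loc (hf (i t₀))
  have hIs := hasStrictFDerivAt_loc (hi t₀)
  -- the coordinates near `i t₀`
  have hΦ : HasStrictFDerivAt (fun u => (chartAt E' (f (i t₀)) (f (cX.symm u)), L u))
      (G : E →L[ℂ] E' × E₀) (cX (i t₀)) := by
    rw [hG]
    exact hFs.prodMk L.hasStrictFDerivAt
  -- the coordinates near `t₀`
  have hIc : ContDiffAt ℂ ω (fun v => L (cX (i (cF.symm v)))) (cF t₀) :=
    L.contDiff.contDiffAt.comp (cF t₀) (contDiffAt_loc (hi t₀))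
  have hId : HasFDerivAt (fun v => L (cX (i (cF.symm v))))
      ((ContinuousLinearEquiv.refl ℂ E₀ : E₀ ≃L[ℂ] E₀) : E₀ →L[ℂ] E₀) (cF t₀) := by
    have h1 : HasFDerivAt (fun v => L (cX (i (cF.symm v)))) (L.comp B) (cF t₀) :=
      L.hasFDerivAt.comp (cF t₀) hIs.hasFDerivAt
    have h2 : L.comp B = ((ContinuousLinearEquiv.refl ℂ E₀ : E₀ ≃L[ℂ] E₀) : E₀ →L[ℂ] E₀) := by
      ext v
      exact hLB v
    rw [← h2]
    exact h1
  have : CompleteSpace E₀ := FiniteDimensional.complete ℂ E₀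
  have : CompleteSpace E := FiniteDimensional.complete ℂ E
  have hn0 : (ω : WithTop ℕ∞) ≠ 0 := by simp
  set gi := hIc.localInverse hId hn0 with hgi
  have hgic : ContDiffAt ℂ ω gi (L (cX (i (cF.symm (cF t₀))))) := hIc.to_localInverse hId hn0
  have hgi0 : gi (L (cX (i (cF.symm (cF t₀))))) = cF t₀ := hIc.localInverse_apply_image hId hn0
  have hgir : ∀ᶠ w in 𝓝 (L (cX (i (cF.symm (cF t₀))))), L (cX (i (cF.symm (gi w)))) = w :=
    (hIc.hasStrictFDerivAt' hId hn0).eventually_right_inverse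
  rw [cF.left_inv (mem_chart_source E₀ t₀)] at hgic hgi0 hgir
  have hcXc : ContinuousAt cX (i t₀) := cX.continuousAt (mem_chart_source E (i t₀))
  have hmX : ContMDiffAt 𝓘(ℂ, E) 𝓘(ℂ, E) ω cX (i t₀) :=
    (contMDiffOn_chart (I := 𝓘(ℂ, E)) (n := ω) (x := i t₀)).contMDiffAt
      (cX.open_source.mem_nhds (mem_chart_source E (i t₀)))
  have hmF : ContMDiffAt 𝓘(ℂ, E₀) 𝓘(ℂ, E₀) ω cF.symm (cF t₀) :=
    (contMDiffOn_chart_symm (I := 𝓘(ℂ, E₀)) (n := ω) (x := t₀)).contMDiffAt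
      (cF.open_target.mem_nhds (mem_chart_target E₀ t₀))
  set ρ : X → F := fun z => cF.symm (gi (L (cX z))) with hρ
  have hρ0 : ρ (i t₀) = t₀ := by
    show cF.symm (gi (L (cX (i t₀)))) = t₀
    rw [hgi0, cF.left_inv (mem_chart_source E₀ t₀)]
  have hρc : ContMDiffAt 𝓘(ℂ, E) 𝓘(ℂ, E₀) ω ρ (i t₀) := by
    have h1 : ContMDiffAt 𝓘(ℂ, E) 𝓘(ℂ, E₀) ω (fun z => gi (L (cX z))) (i t₀) :=
      ContMDiffAt.comp (i t₀) (g := fun u : E => gi (L u)) (f := cX)
        (ContDiffAt.contMDiffAt (hgic.comp (cX (i t₀)) L.contDiff.contDiffAt)) hmX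
    have h2 : ContMDiffAt 𝓘(ℂ, E₀) 𝓘(ℂ, E₀) ω cF.symm (gi (L (cX (i t₀)))) := by
      rw [hgi0]; exact hmF
    exact ContMDiffAt.comp (i t₀) (g := cF.symm) (f := fun z => gi (L (cX z))) h2 h1
  refine ⟨ρ, hρc, hρ0, ?_⟩
  have hiρ : ContinuousAt (fun z => i (ρ z)) (i t₀) :=
    ContinuousAt.comp (g := i) (hi.continuous.continuousAt) hρc.continuousAt
  have hiρ0 : i (ρ (i t₀)) = i t₀ := by rw [hρ0]
  have e1 : ∀ᶠ z in 𝓝 (i t₀), z ∈ cX.source := cX.open_source.mem_nhds (mem_chart_source E (i t₀))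
  have e3 : ∀ᶠ z in 𝓝 (i t₀), L (cX (i (cF.symm (gi (L (cX z)))))) = L (cX z) := by
    have h1 : ContinuousAt (fun z => L (cX z)) (i t₀) :=
      ContinuousAt.comp (g := L) L.continuous.continuousAt hcXc
    exact h1.eventually hgir
  have e5 : ∀ᶠ z in 𝓝 (i t₀), hΦ.localInverse _ _ _
      (chartAt E' (f (i t₀)) (f (cX.symm (cX z))), L (cX z)) = cX z :=
    hcXc.eventually hΦ.eventually_left_inverse
  have e46 : ∀ᶠ z in 𝓝 (i (ρ (i t₀))), z ∈ cX.source ∧ hΦ.localInverse _ _ _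
      (chartAt E' (f (i t₀)) (f (cX.symm (cX z))), L (cX z)) = cX z := by
    rw [hiρ0]
    exact e1.and e5
  have e4 := hiρ.eventually e46
  filter_upwards [e1, e3, e5, e4] with z a1 a3 a5 a4 hz
  obtain ⟨b1, b2⟩ := a4
  refine cX.injOn b1 a1 ?_
  rw [cX.left_inv a1] at a5
  rw [cX.left_inv b1] at b2
  have h0 : f (i (ρ z)) = f z := by rw [hfi, hz]
  rw [← b2, ← a5]
  exact congrArg _ (Prod.ext (congrArg (chartAt E' (f (i t₀))) h0) a3)

end

end Vale.Agent.P281.H740
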